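import Vale.Agent.P089GQ.St
import Vale.Agent.P089GM.Kit

/-! From the working form of the definitions to the form of the statement. -/

namespace Vale.Agent.P089GQ

open Vale.Agent.P089G Vale.Agent.P089Z Vale.Agent.P089.BC Topology TopologicalSpace

theorem push_eq {G Y Y' : Type} [Group G] [TopologicalSpace Y] [MulAction G Y]
    [ContinuousConstSMul G Y] [TopologicalSpace Y'] [MulAction G Y'] [ContinuousConstSMul G Y']
    (f : CocompactMap Y Y') (hf : ∀ (g : G) y, f (g • y) = g • f y) {c : Cyc G Y} {c' : Cyc G Y'}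
    (h : Push f c c') : c' = c.push f hf := by
  obtain ⟨a, b, h1, h2, h3, h4⟩ := h
  obtain ⟨γ, ρ, U, F, _⟩ := b
  obtain rfl : γ = a.γ := h1
  obtain rfl : F = a.F := h3
  obtain rfl : U = a.U := h2
  obtain rfl : ρ = pushRep f a := NonUnitalStarAlgHom.ext fun u => by
    obtain ⟨v, e, k⟩ := h4 u
    exact k.trans (congrArg a.ρ (ZeroAtInftyContinuousMap.ext e))
  rfl

variable {G K : Type} (X : Type) [Group G] [TopologicalSpace X] [MulAction G X]
  [ContinuousConstSMul G X] [CWComplex (Set.univ : Set X)] [NormedAddCommGroup K]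
  [InnerProductSpace ℂ K]

theorem kyPush_eq : (KY.push : ∀ Y Y' : Sub G X, Y ≤ Y' → KY Y →+ KY Y') = Sub.push := by
  funext Y Y' h
  refine Pres.hom_ext fun c => ?_
  obtain ⟨c', a, e⟩ := (exPush h).choose_spec c
  rw [push_eq (Sub.incl h) (Sub.incl_smul h) a] at e
  exact e

/-- the last clause of the statement for any system of maps -/
def Gen' (φ : ∀ Y Y' : Sub G X, Y ≤ Y' → KY Y →+ KY Y') (b : HilbertBasis G ℂ K) : Prop :=
  Fails (M := AddCommGroup.DirectLimit KY φ) (fun μ =>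
    ∀ (E : Type) [NormedAddCommGroup E] [InnerProductSpace ℂ E] [CompleteSpace E]
    (c : HilbertBasis (G × ℕ) ℂ E), ∃ κ : KZero (Cr b) → KZero (St c),
    IsInd (fun T S => IsCorner b c T.op S.op) κ ∧
    ∀ (Y : Sub G X) (H : Type) [NormedAddCommGroup H] [InnerProductSpace ℂ H] [CompleteSpace H]
      [SeparableSpace H] (Z : Cycle G Y.Y H), IsIndex (IsIndexMat c Z)
        (κ (μ (AddCommGroup.DirectLimit.of KY φ Y (Pres.of _ _ ⟨H, Z⟩))))) (unit (Cr b))

theorem fails_of (b : HilbertBasis G ℂ K) (h : P089G.AssemblyFails X b) : AssemblyFails X b := by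
  have e : Gen' X Sub.push b := by
    obtain ⟨μ, a1, a2, a3⟩ := h
    refine ⟨μ, fun E _ _ _ c => ?_, fun μ' h => a2 μ' fun E _ _ _ c => ?_, a3⟩
    · obtain ⟨κ, b1, b2, b3⟩ := a1 E c
      exact ⟨κ, ⟨κ.map_add, b2, b1⟩, b3⟩
    · obtain ⟨κ, ⟨b1, b2, b3⟩, b4⟩ := h E c
      exact ⟨AddMonoidHom.mk' κ b1, b3, b2, b4⟩
  rw [← kyPush_eq] at e
  exact e

end Vale.Agent.P089GQ
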