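import Vale.Agent.P089GQ.Br
import Vale.Agent.P089GG.Mu

/-! The final statement. -/

namespace Vale.Agent.P089GQ

open Vale.Agent.P089G Topology

theorem final : ∃ (G : Type) (_ : Group G), Countable G ∧ Group.FG G ∧
    (∃ (X : Type) (_ : TopologicalSpace X) (_ : MulAction G X) (_ : ContinuousConstSMul G X)
      (_ : CWComplex (Set.univ : Set X)), IsEG G X) ∧
    ∀ (X : Type) [TopologicalSpace X] [MulAction G X] [ContinuousConstSMul G X]
      [CWComplex (Set.univ : Set X)], IsEG G X →
    ∀ (K : Type) [NormedAddCommGroup K] [InnerProductSpace ℂ K] [CompleteSpace K]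
      (b : HilbertBasis G ℂ K), AssemblyFails X b := by
  obtain ⟨G, i, h1, h2, h3, h4⟩ := P089GG.final
  exact ⟨G, i, h1, h2, h3, fun X _ _ _ _ h K _ _ _ b => fails_of X b (h4 X h K b)⟩

end Vale.Agent.P089GQ
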