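import Vale.Agent.P089G.Defs

/-! The K-homology of `X` with `G`-compact supports, `C*_r(G)` and the assembly map. -/

namespace Vale.Agent.P089GQ

open Vale.Agent.P089G Vale.Agent.P089Z Vale.Agent.P089.BC Topology TopologicalSpace
open scoped ZeroAtInfty

noncomputable section

/-- There is a homomorphism with the property `P`. -/
def ExHom {A B : Type 1} [AddCommGroup A] [AddCommGroup B] (P : (A → B) → Prop) : Prop :=
  ∃ φ : A →+ B, P φ

/-- The homomorphism with the property `P`. -/
def ExHom.hom {A B : Type 1} [AddCommGroup A] [AddCommGroup B] {P : (A → B) → Prop}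
    (h : ExHom P) : A →+ B :=
  h.choose

/-- The value of a homomorphism. -/
def ap {A B : Type 1} [AddCommGroup A] [AddCommGroup B] (φ : A →+ B) (x : A) : B := φ x

section

variable {G Y Y' : Type} [Group G] [TopologicalSpace Y] [MulAction G Y] [ContinuousConstSMul G Y]
  [TopologicalSpace Y'] [MulAction G Y'] [ContinuousConstSMul G Y']

/-- `b` is the push forward of `a` along `f`: same grading, unitary representation and operator,
and `u ∈ C₀(Y')` acts as `u ∘ f ∈ C₀(Y)`. -/
structure PushZ {H : Type} [NormedAddCommGroup H] [InnerProductSpace ℂ H] [CompleteSpace H]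
    (f : Y → Y') (a : Cycle G Y H) (b : Cycle G Y' H) : Prop where
  γ : b.γ = a.γ
  U : b.U = a.U
  F : b.F = a.F
  ρ : ∀ u : C₀(Y', ℂ), ∃ v : C₀(Y, ℂ), (∀ y, v y = u (f y)) ∧ b.ρ u = a.ρ v

/-- The second cycle is the push forward of the first one along `f`. -/
inductive Push (f : Y → Y') : Cyc G Y → Cyc G Y' → Prop
  | mk {H : Type} [NormedAddCommGroup H] [InnerProductSpace ℂ H] [CompleteSpace H]
      [SeparableSpace H] (a : Cycle G Y H) (b : Cycle G Y' H) :
      PushZ f a b → Push f ⟨H, a⟩ ⟨H, b⟩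

/-- `φ` maps the class of a cycle to the class of its push forward along `f`. -/
def IsPush (f : Y → Y') (φ : KK G Y → KK G Y') : Prop :=
  ∀ c, ∃ c', Push f c c' ∧ φ (Pres.of _ _ c) = Pres.of _ _ c'

end

section

variable {G X : Type} [Group G] [TopologicalSpace X] [MulAction G X] [ContinuousConstSMul G X]
  [CWComplex (Set.univ : Set X)]

/-- The group `KK^G_0(C₀(Y), ℂ)` of a `G`-compact invariant subcomplex `Y`. -/
def KY (Y : Sub G X) : Type 1 := KK G Y.Y

instance kyGroup (Y : Sub G X) : AddCommGroup (KY Y) := presGroup _ _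

theorem exPush {Y Y' : Sub G X} (h : Y ≤ Y') :
    ExHom (A := KY Y) (B := KY Y') (IsPush (Sub.inclFun h)) :=
  ⟨Sub.push Y Y' h, fun c => ⟨c.push (Sub.incl h) (Sub.incl_smul h), by
    obtain ⟨H, a⟩ := c
    exact .mk a (push _ (Sub.incl_smul h) a)
      ⟨rfl, rfl, rfl, fun u => ⟨_, fun _ => rfl, rfl⟩⟩, rfl⟩⟩

/-- The map of K-homology groups induced by an inclusion of subcomplexes. -/
def KY.push (Y Y' : Sub G X) (h : Y ≤ Y') : KY Y →+ KY Y' := (exPush h).hom

variable (G X) in
/-- The equivariant K-homology with `G`-compact supports,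
`K_0^G(X) = lim_Y KK^G_0(C₀(Y), ℂ)`. -/
def KG : Type 1 := AddCommGroup.DirectLimit (KY (G := G) (X := X)) KY.push

instance kgGroup : AddCommGroup (KG G X) := AddCommGroup.DirectLimit.addCommGroup _ _

/-- The class in `K_0^G(X)` of a cycle over `Y`. -/
def KG.cls (Y : Sub G X) (c : Cyc G Y.Y) : KG G X :=
  ap (A := KY Y) (B := KG G X) (AddCommGroup.DirectLimit.of KY KY.push Y) (Pres.of _ _ c)

end

section

variable {A : Type} [Ring A] [Algebra ℂ A] [TopologicalSpace A] [IsTopologicalRing A]

/-- The closure of the unital subalgebra generated by `S`. -/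
def Gen (S : Set A) : Type := (Algebra.adjoin ℂ S).topologicalClosure

instance genRing (S : Set A) : Ring (Gen S) := Subalgebra.toRing _

/-- The inclusion in `A`. -/
def Gen.op {S : Set A} (x : Gen S) : A := x.1

end

section

variable {R B : Type} [Ring R] [Ring B]

/-- `κ` is the injective homomorphism induced by the map of rings with graph `φ`. -/
def IsInd (φ : R → B → Prop) (κ : KZero R → KZero B) : Prop :=
  (∀ x y, κ (x + y) = κ x + κ y) ∧ Function.Injective κ ∧
    ∀ q : Idem R, ∃ (e : Matrix (Fin q.n) (Fin q.n) B) (h : e * e = e),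
      (∀ j k, φ (q.e j k) (e j k)) ∧ κ q.cls = Idem.cls ⟨q.n, e, h⟩

/-- There are matrices with the property `P`, and `x = [A + diag(0, 1)] - [diag(0, 1)]` for each
of them. -/
def IsIndex (P : Matrix (Fin 2) (Fin 2) B → Prop) (x : KZero B) : Prop :=
  (∃ A, P A) ∧ ∀ A, P A →
    ∃ h h', x = Idem.cls ⟨2, addDiag A, h⟩ - Idem.cls ⟨2, diag01 B, h'⟩

variable (R) in
/-- The class of the unit. -/
def unit : KZero R := Idem.cls ⟨1, 1, one_mul 1⟩

end

/-- There is exactly one homomorphism `μ` with the property `P`; it is not surjective, some class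
has no positive multiple in the image, and `u` is in the image. -/
def Fails {M : Type 1} {N : Type} [AddCommGroup M] [AddCommGroup N] (P : (M → N) → Prop) (u : N) :
    Prop :=
  ∃ μ : M →+ N, P μ ∧ (∀ μ' : M →+ N, P μ' → μ' = μ) ∧ ¬ Function.Surjective μ ∧
    (∃ x, ∀ m : ℕ, 1 ≤ m → m • x ∉ μ.range) ∧ u ∈ μ.range

section

variable {G Y H K E : Type} [Group G] [TopologicalSpace Y] [MulAction G Y]
  [ContinuousConstSMul G Y] [NormedAddCommGroup H] [InnerProductSpace ℂ H] [CompleteSpace H]
  [NormedAddCommGroup K] [InnerProductSpace ℂ K] [NormedAddCommGroup E] [InnerProductSpace ℂ E]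

/-- The left translations `λ_g` on `ℓ²(G)`, a Hilbert space `K` with orthonormal basis `b x`,
`x ∈ G`. -/
def lam (b : HilbertBasis G ℂ K) : Set (K →L[ℂ] K) := {T | ∃ g, ∀ x, T (b x) = b (g * x)}

/-- The operators `λ_g ⊗ e_ij` on `ℓ²(G) ⊗ ℓ²(ℕ)`. -/
def lamE (c : HilbertBasis (G × ℕ) ℂ E) : Set (E →L[ℂ] E) :=
  {T | ∃ g i j, (∀ x, T (c (x, j)) = c (g * x, i)) ∧ ∀ x n, n ≠ j → T (c (x, n)) = 0}

/-- The reduced group C*-algebra `C*_r(G)`: the norm closure of `ℂ[G]` in `B(ℓ²(G))`. -/
def Cr (b : HilbertBasis G ℂ K) : Type := Gen (lam b)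

instance crRing (b : HilbertBasis G ℂ K) : Ring (Cr b) := genRing _

/-- An element of `C*_r(G)` as an operator. -/
def Cr.op {b : HilbertBasis G ℂ K} (x : Cr b) : K →L[ℂ] K := Gen.op x

/-- The unitization of `C*_r(G) ⊗ 𝒦`. -/
def St (c : HilbertBasis (G × ℕ) ℂ E) : Type := Gen (lamE c)

instance stRing (c : HilbertBasis (G × ℕ) ℂ E) : Ring (St c) := genRing _

/-- An element of the unitization of `C*_r(G) ⊗ 𝒦` as an operator. -/
def St.op {c : HilbertBasis (G × ℕ) ℂ E} (x : St c) : E →L[ℂ] E := Gen.op x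

/-- `A` is the index matrix of the product of the descent of `Z` with the cutoff projection `p`,
for some cutoff function `w` and some embedding of `H` in `ℓ²(ℕ)`. -/
def IsIndexMat (c : HilbertBasis (G × ℕ) ℂ E) (Z : Cycle G Y H) (A : Fin 2 → Fin 2 → St c) :
    Prop :=
  ∃ (w : C₀(Y, ℂ)) (p : MonoidAlgebra (H →L[ℂ] H) G) (ι : Type) (d : HilbertBasis ι ℂ H)
    (u : ι ↪ ℕ), IsCutoff G Y w ∧ Z.IsProj w p ∧ ∀ j k, IsSum c d u (Z.index p j k) (A j k).op

end

section

variable {G K : Type} (X : Type) [Group G] [TopologicalSpace X] [MulAction G X]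
  [ContinuousConstSMul G X] [CWComplex (Set.univ : Set X)] [NormedAddCommGroup K]
  [InnerProductSpace ℂ K]

/-- `μ : K_0^G(X) → K_0(C*_r(G))` is the assembly map: the stabilisation map `κ`, induced by
`T ↦ T ⊗ e₀₀`, is injective, and `κ (μ [Z])` is the analytic index of `Z`. -/
def IsAssembly (b : HilbertBasis G ℂ K) (μ : KG G X → KZero (Cr b)) : Prop :=
  ∀ (E : Type) [NormedAddCommGroup E] [InnerProductSpace ℂ E] [CompleteSpace E]
    (c : HilbertBasis (G × ℕ) ℂ E), ∃ κ : KZero (Cr b) → KZero (St c),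
    IsInd (fun T S => IsCorner b c T.op S.op) κ ∧
    ∀ (Y : Sub G X) (H : Type) [NormedAddCommGroup H] [InnerProductSpace ℂ H] [CompleteSpace H]
      [SeparableSpace H] (Z : Cycle G Y.Y H),
      IsIndex (IsIndexMat c Z) (κ (μ (KG.cls Y ⟨H, Z⟩)))

/-- The assembly map of `X` exists, is unique, and is not surjective; some class has no positive
multiple in the image, and the class of the unit is in the image. -/
def AssemblyFails (b : HilbertBasis G ℂ K) : Prop := Fails (IsAssembly X b) (unit (Cr b))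

end

end

end Vale.Agent.P089GQ
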